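import Vale.Agent.P253.Circle.Final

/-!
P253: complete noncompact Kaehler manifolds of positive bisectional curvature with a circle of
holomorphic isometries having a fixed point with isotropy weights of one strict sign are
biholomorphic to `ℂ^n`.
-/

open scoped Manifold ContDiff

noncomputable section

namespace Vale.Agent.Results.P253.CircleSink

open Vale.Agent.P253.Circle (Cn Metric IsKaehler PositiveBisect Complete CircleSymmetry Sink)

theorem result :
    ∀ (n : ℕ) (M : Type) [TopologicalSpace M] [T2Space M] [ConnectedSpace M] [NoncompactSpace M]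
      [ChartedSpace (Cn n) M] [IsManifold 𝓘(ℂ, Cn n) ω M] (G : Metric (Cn n) M) (ρ : ℝ → M → M) (o : M),
      IsKaehler G → PositiveBisect G → Complete G → CircleSymmetry G ρ → Sink n (Cn n) ρ o →
        Nonempty (Diffeomorph 𝓘(ℂ, Cn n) 𝓘(ℂ, Cn n) M (Cn n) ∞) :=
  fun _ _ _ _ _ _ _ _ _ _ _ hG hK hC hρ ho =>
    Vale.Agent.P253.Circle.biholomorphic hG hK hC hρ ho

end Vale.Agent.Results.P253.CircleSink
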