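import Mathlib

open Complex Set Filter Topology Metric
open scoped InnerProductSpace ContDiff

noncomputable section

namespace Vale.Agent.Results.P253.SymmetricDomains

variable {E : Type} [NormedAddCommGroup E] [InnerProductSpace ℂ E]

/-- Squared length of `u` for the Hermitian endomorphism `T`. -/
def sq (T : E →L[ℂ] E) (u : E) : ℝ := (⟪u, T u⟫_ℂ).re

/-- A Hermitian metric of class C^2 on `D`, `g_z(u,v) = ⟪v, G z u⟫`. -/
def HermMetric (D : Set E) (G : E → (E →L[ℂ] E)) : Prop :=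
  ContDiffOn ℝ 2 G D ∧
    ∀ z ∈ D, (∀ u v, ⟪G z u, v⟫_ℂ = ⟪u, G z v⟫_ℂ) ∧ ∀ u, u ≠ 0 → 0 < sq (G z) u

/-- The Wirtinger derivative `∂_u G = (G'(u) - i G'(iu))/2`. -/
def dz (G : E → (E →L[ℂ] E)) (z u : E) : E →L[ℂ] E :=
  (1 / 2 : ℂ) • (fderiv ℝ G z u - I • fderiv ℝ G z (I • u))

/-- `∂_u ∂̄_u G = (G''(u,u) + G''(iu,iu))/4`. -/
def ddbar (G : E → (E →L[ℂ] E)) (z u : E) : E →L[ℂ] E :=
  (1 / 4 : ℂ) • (fderiv ℝ (fderiv ℝ G) z u u + fderiv ℝ (fderiv ℝ G) z (I • u) (I • u))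

/-- `R(u,ū,w,w̄) = -g_{ww̄,uū} + g^{pq̄} g_{wq̄,u} g_{pw̄,ū}`. -/
def bisect (G : E → (E →L[ℂ] E)) (z u w : E) : ℝ :=
  -(⟪w, ddbar G z u w⟫_ℂ).re + (⟪dz G z u w, (G z).inverse (dz G z u w)⟫_ℂ).re

/-- Completeness: a C^1 curve in `D` of finite length converges in `D`. -/
def CompleteMetric (D : Set E) (G : E → (E →L[ℂ] E)) : Prop :=
  ∀ (c : ℝ → E) (b : ℝ), 0 < b → ContDiffOn ℝ 1 c (Ico 0 b) → MapsTo c (Ico 0 b) D →
    (∃ L : ℝ, ∀ t ∈ Ico 0 b,
      ∫ s in (0 : ℝ)..t, Real.sqrt (sq (G (c s)) (derivWithin c (Ico 0 b) s)) ≤ L) →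
    ∃ p ∈ D, Tendsto c (𝓝[<] b) (𝓝 p)

/-- The standing hypotheses: a complete Hermitian metric on an open set, bisectional
curvature nonnegative. -/
def Good (D : Set E) (G : E → (E →L[ℂ] E)) : Prop :=
  IsOpen D ∧ HermMetric D G ∧ CompleteMetric D G ∧ ∀ z ∈ D, ∀ u w, 0 ≤ bisect G z u w

/-- An action of `(ℂ,+)` on `E`, holomorphic jointly in time and point. -/
def CFlow (Φ : ℂ → E → E) : Prop :=
  ContDiff ℂ ∞ (fun p : ℂ × E => Φ p.1 p.2) ∧ (∀ z, Φ 0 z = z) ∧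
    ∀ s t z, Φ (s + t) z = Φ s (Φ t z)

/-- The imaginary times preserve `D` and the metric. -/
def RealSymmetry (D : Set E) (G : E → (E →L[ℂ] E)) (Φ : ℂ → E → E) : Prop :=
  ∀ s : ℝ, ∀ z ∈ D, Φ ((s : ℂ) * I) z ∈ D ∧
    ∀ u, sq (G (Φ ((s : ℂ) * I) z)) (fderiv ℂ (Φ ((s : ℂ) * I)) z u) = sq (G z) u

/-- `D` and the metric are invariant under the linear maps `L s`. -/
def Symm (D : Set E) (G : E → (E →L[ℂ] E)) (L : ℝ → E → E) : Prop :=
  ∀ s : ℝ, ∀ z ∈ D, L s z ∈ D ∧ ∀ u, sq (G (L s z)) (L s u) = sq (G z) u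

/-! ### Positive Hermitian endomorphisms -/

variable [FiniteDimensional ℂ E] [CompleteSpace E] [ProperSpace E]

structure IsPos (T : E →L[ℂ] E) : Prop where
  sym : ∀ u v, ⟪T u, v⟫_ℂ = ⟪u, T v⟫_ℂ
  pos : ∀ u, u ≠ 0 → 0 < sq T u

lemma IsPos.nonneg {T : E →L[ℂ] E} (hT : IsPos T) (u : E) : 0 ≤ sq T u := by
  by_cases h : u = 0
  · simp [h, sq]
  · exact (hT.pos u h).le

lemma IsPos.im_zero {T : E →L[ℂ] E} (hT : IsPos T) (u : E) :
    (⟪u, T u⟫_ℂ).im = 0 := by
  have h := hT.sym u u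
  rw [← inner_conj_symm (T u) u] at h
  exact Complex.conj_eq_iff_im.1 h

lemma IsPos.invertible {T : E →L[ℂ] E} (hT : IsPos T) : T.IsInvertible := by
  have hinj : Function.Injective T := by
    rw [injective_iff_map_eq_zero]
    intro u hu
    by_contra h
    have := hT.pos u h
    simp [sq, hu] at this
  exact ⟨(LinearEquiv.ofInjectiveEndo (T : E →ₗ[ℂ] E) hinj).toContinuousLinearEquiv, rfl⟩

lemma IsPos.apply_inv {T : E →L[ℂ] E} (hT : IsPos T) (v : E) :
    T (T.inverse v) = v :=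
  hT.invertible.self_apply_inverse v

lemma IsPos.cauchy {T : E →L[ℂ] E} (hT : IsPos T) (a b : E) :
    ‖⟪a, T b⟫_ℂ‖ ^ 2 ≤ sq T a * sq T b := by
  by_cases hb : b = 0
  · simp [hb, sq]
  have hqb := hT.pos b hb
  have hqne : (sq T b : ℂ) ≠ 0 := by exact_mod_cast hqb.ne'
  set r : ℂ := ⟪b, T a⟫_ℂ
  set c : ℂ := r / (sq T b : ℂ)
  have hbb : ⟪b, T b⟫_ℂ = (sq T b : ℂ) :=
    Complex.ext rfl (by simpa using hT.im_zero b)
  have hab : ⟪a, T b⟫_ℂ = (starRingEnd ℂ) r := by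
    rw [← hT.sym, ← inner_conj_symm (T a) b]
  have key : ⟪a - c • b, T (a - c • b)⟫_ℂ = ⟪a, T a⟫_ℂ - r * (starRingEnd ℂ) r / (sq T b : ℂ) := by
    simp only [map_sub, map_smul, inner_sub_left, inner_sub_right, inner_smul_left,
      inner_smul_right, hbb, hab, show ⟪b, T a⟫_ℂ = r from rfl, c, map_div₀, Complex.conj_ofReal]
    field_simp
    ring
  have h0 := hT.nonneg (a - c • b)
  rw [sq, key, Complex.mul_conj, ← Complex.ofReal_div, Complex.sub_re, Complex.ofReal_re,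
    ← Complex.sq_norm] at h0
  rw [hab, Complex.norm_conj]
  have h1 : ‖r‖ ^ 2 / sq T b ≤ sq T a := by unfold sq at h0 ⊢; linarith
  exact (div_le_iff₀ hqb).1 h1

/-- The dual squared norm. -/
def dual (T : E →L[ℂ] E) (v : E) : ℝ := (⟪v, T.inverse v⟫_ℂ).re

lemma IsPos.dual_eq {T : E →L[ℂ] E} (hT : IsPos T) (v : E) :
    dual T v = sq T (T.inverse v) := by
  unfold dual sq
  nth_rw 1 [← hT.apply_inv v]
  rw [hT.sym]

lemma IsPos.dual_pos {T : E →L[ℂ] E} (hT : IsPos T) {v : E} (hv : v ≠ 0) :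
    0 < dual T v := by
  rw [hT.dual_eq]
  refine hT.pos _ fun h => hv ?_
  rw [← hT.apply_inv v, h, map_zero]

lemma IsPos.le_dual {T : E →L[ℂ] E} (hT : IsPos T) (v w : E) :
    (⟪v, w⟫_ℂ).re ^ 2 ≤ dual T v * sq T w := by
  have h := hT.cauchy (T.inverse v) w
  rw [← hT.sym, hT.apply_inv, ← hT.dual_eq] at h
  have h2 : (⟪v, w⟫_ℂ).re ^ 2 ≤ ‖⟪v, w⟫_ℂ‖ ^ 2 := by
    rw [Complex.sq_norm, Complex.normSq_apply]
    nlinarith [mul_self_nonneg (⟪v, w⟫_ℂ).im]
  linarith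

/-! ### Convexity of the dual norms -/

/-- The second order condition that curvature gives along a symmetric orbit. -/
def TestCond (T : ℝ → (E →L[ℂ] E)) (x₀ : ℝ) : Prop :=
  ∀ η₀ : E, ∃ (η₁ : E) (φ₁ : ℝ → ℝ) (φ₂ : ℝ),
    (⟪η₁, T x₀ η₀⟫_ℂ).im = 0 ∧
    (∀ᶠ h in 𝓝 (0 : ℝ), HasDerivAt (fun s : ℝ => sq (T (x₀ + s)) (η₀ + s • η₁)) (φ₁ h) h) ∧
    HasDerivAt φ₁ φ₂ 0 ∧ φ₁ 0 = 0 ∧ φ₂ + 2 * sq (T x₀) η₁ ≤ 0

lemma not_localMax_of_deriv2_pos {f f₁ : ℝ → ℝ} {f₂ x : ℝ}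
    (h1 : ∀ᶠ y in 𝓝 x, HasDerivAt f (f₁ y) y) (h2 : HasDerivAt f₁ f₂ x) (hpos : 0 < f₂) :
    ¬ IsLocalMax f x := by
  intro hmax
  have hev : deriv f =ᶠ[𝓝 x] f₁ := h1.mono fun y hy => hy.deriv
  have hd0 : deriv f x = 0 := hmax.deriv_eq_zero
  have hdd : deriv (deriv f) x = f₂ := by rw [hev.deriv_eq, h2.deriv]
  have hmin : IsLocalMin f x :=
    isLocalMin_of_deriv_deriv_pos (by rw [hdd]; exact hpos) hd0
      h1.self_of_nhds.continuousAt
  have hconst : f =ᶠ[𝓝 x] fun _ => f x := by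
    filter_upwards [hmax, hmin] with y h₁ h₂ using le_antisymm h₁ h₂
  have : deriv (deriv f) x = 0 := by
    have h3 : deriv f =ᶠ[𝓝 x] deriv (fun _ => f x) := hconst.deriv
    rw [h3.deriv_eq]
    simp
  linarith [hdd]

lemma dual_chord {T : ℝ → (E →L[ℂ] E)} {a b : ℝ} (hab : a < b)
    (hc : ContinuousOn T (Icc a b)) (hpos : ∀ x ∈ Icc a b, IsPos (T x))
    (htest : ∀ x ∈ Ioo a b, TestCond T x) {v : E} (hv : v ≠ 0) {x : ℝ} (hx : x ∈ Icc a b) :
    (b - a) * Real.log (dual (T x) v) ≤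
      (b - x) * Real.log (dual (T a) v) + (x - a) * Real.log (dual (T b) v) := by
  set u : ℝ → ℝ := fun y => Real.log (dual (T y) v)
  have hu : ContinuousOn u (Icc a b) := by
    intro y hy
    obtain ⟨e, he⟩ := (hpos y hy).invertible
    have h1 : ContinuousAt ContinuousLinearMap.inverse (T y) :=
      (he ▸ (contDiffAt_map_inverse (n := 0) e).continuousAt : _)
    have h2 : ContinuousWithinAt (fun s => (T s).inverse) (Icc a b) y :=
      ContinuousAt.comp_continuousWithinAt (g := ContinuousLinearMap.inverse) h1 (hc y hy)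
    have h3 : ContinuousWithinAt (fun s => (T s).inverse v) (Icc a b) y :=
      h2.clm_apply continuousWithinAt_const
    have h4 : ContinuousWithinAt (fun s => dual (T s) v) (Icc a b) y :=
      Complex.continuous_re.continuousAt.comp_continuousWithinAt
        (continuousWithinAt_const.inner h3)
    exact h4.log ((hpos y hy).dual_pos hv).ne'
  by_contra hlt
  rw [not_le] at hlt
  set m := (u b - u a) / (b - a)
  set k : ℝ → ℝ := fun y => u y - (u a + m * (y - a))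
  have hm : m * (b - a) = u b - u a := div_mul_cancel₀ _ (by linarith)
  have hkx : 0 < k x := by
    have hba : 0 < b - a := by linarith
    have : 0 < (b - a) * k x := by
      simp only [k]
      have e : (b - a) * (u x - (u a + m * (x - a)))
          = (b - a) * u x - ((b - a) * u a + (m * (b - a)) * (x - a)) := by ring
      rw [e, hm]
      simp only [u] at hlt ⊢
      linarith
    exact pos_of_mul_pos_right this hba.le
  have hka : k a = 0 := by simp [k]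
  have hkb : k b = 0 := by simp only [k]; linarith
  set ε := k x / (2 * ((b - a) ^ 2 + 1))
  have hε : 0 < ε := by positivity
  set k' : ℝ → ℝ := fun y => k y + ε * (y - a) ^ 2
  have hk'c : ContinuousOn k' (Icc a b) := by
    simp only [k', k]; fun_prop
  obtain ⟨x₀, hx₀, hmax⟩ := isCompact_Icc.exists_isMaxOn (nonempty_Icc.2 hab.le) hk'c
  have hbig : ε * (b - a) ^ 2 < k x := by
    have : ε * (2 * ((b - a) ^ 2 + 1)) = k x := div_mul_cancel₀ _ (by positivity)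
    nlinarith [mul_nonneg hε.le (sq_nonneg (b - a))]
  have hgt : ε * (b - a) ^ 2 < k' x₀ := by
    have h1 : k' x ≤ k' x₀ := hmax hx
    have h2 : 0 ≤ ε * (x - a) ^ 2 := by positivity
    simp only [k'] at h1 ⊢
    linarith
  have hna : x₀ ≠ a := by
    rintro rfl
    simp [k', hka] at hgt
    nlinarith [mul_nonneg hε.le (sq_nonneg (b - x₀))]
  have hnb : x₀ ≠ b := by
    rintro rfl
    simp [k', hkb] at hgt
  have hI : x₀ ∈ Ioo a b := ⟨lt_of_le_of_ne hx₀.1 (Ne.symm hna), lt_of_le_of_ne hx₀.2 hnb⟩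
  -- lower support function at `x₀`
  have hP := hpos x₀ hx₀
  set η₀ := (T x₀).inverse v
  have hTη : T x₀ η₀ = v := hP.apply_inv v
  set α := sq (T x₀) η₀
  have hαd : dual (T x₀) v = α := hP.dual_eq v
  have hα : 0 < α := hαd ▸ hP.dual_pos hv
  obtain ⟨η₁, φ₁, φ₂, him, hφ1, hφ2, hφ0, hineq⟩ := htest x₀ hI η₀
  set β := (⟪v, η₁⟫_ℂ).re
  set φ : ℝ → ℝ := fun s => sq (T (x₀ + s)) (η₀ + s • η₁)
  have hφz : φ 0 = α := by simp [φ, α]
  set ψ : ℝ → ℝ := fun s => 2 * Real.log (α + β * s) - Real.log (φ s)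
  set M : ℝ → ℝ := fun s => ψ s - (u a + m * (x₀ + s - a)) + ε * (x₀ + s - a) ^ 2
  have hlin : ∀ᶠ s in 𝓝 (0 : ℝ), 0 < α + β * s :=
    (continuousAt_const.add (continuousAt_const.mul continuousAt_id)).eventually_const_lt
      (by simpa using hα)
  have hφpos : ∀ᶠ s in 𝓝 (0 : ℝ), 0 < φ s :=
    hφ1.self_of_nhds.continuousAt.eventually_const_lt (by simpa [hφz] using hα)
  have hin : ∀ᶠ s in 𝓝 (0 : ℝ), x₀ + s ∈ Ioo a b := by
    have : Tendsto (fun s : ℝ => x₀ + s) (𝓝 0) (𝓝 x₀) := by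
      simpa using (continuous_const_add x₀).tendsto 0
    exact this (isOpen_Ioo.mem_nhds hI)
  have hle : ∀ᶠ s in 𝓝 (0 : ℝ), ψ s ≤ u (x₀ + s) := by
    filter_upwards [hlin, hφpos, hin] with s hs hp hsI
    have hPs := hpos _ (Ioo_subset_Icc_self hsI)
    have h := hPs.le_dual v (η₀ + s • η₁)
    have e : (⟪v, η₀ + s • η₁⟫_ℂ).re = α + β * s := by
      rw [inner_add_right, inner_smul_right_eq_smul, Complex.add_re, Complex.smul_re]
      have : (⟪v, η₀⟫_ℂ).re = α := by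
        simp only [α, sq]; rw [← hTη, hP.sym]
      rw [this, smul_eq_mul]; ring
    rw [e] at h
    have := Real.log_le_log (by positivity) h
    rw [Real.log_mul (hPs.dual_pos hv).ne' (ne_of_gt hp), Real.log_pow] at this
    simp only [ψ, u]
    push_cast at this
    linarith
  have hψ0 : ψ 0 = u x₀ := by
    simp only [ψ, u, hαd, hφz]; simp; ring
  have hMmax : IsLocalMax M 0 := by
    filter_upwards [hle, hin] with s hs hsI
    have h1 : k' (x₀ + s) ≤ k' x₀ := hmax (Ioo_subset_Icc_self hsI)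
    simp only [k', k] at h1
    simp only [M, hψ0]
    ring_nf at h1 ⊢
    linarith
  set M₁ : ℝ → ℝ := fun s =>
    2 * (β / (α + β * s)) - φ₁ s / φ s - m + 2 * ε * (x₀ + s - a)
  have hM1 : ∀ᶠ s in 𝓝 (0 : ℝ), HasDerivAt M (M₁ s) s := by
    filter_upwards [hlin, hφpos, hφ1] with s hs hp hd
    have d1 : HasDerivAt (fun t => α + β * t) β s := by
      simpa using ((hasDerivAt_id s).const_mul β).const_add α
    have d2 : HasDerivAt (fun t => x₀ + t - a) 1 s := by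
      simpa using ((hasDerivAt_id s).const_add x₀).sub_const a
    have := ((((d1.log hs.ne').const_mul 2).sub (hd.log hp.ne')).sub
      ((d2.const_mul m).const_add (u a))).add ((d2.pow 2).const_mul ε)
    refine this.congr_deriv ?_
    simp only [M₁, φ]; ring
  have hM2 : HasDerivAt M₁ (-2 * β ^ 2 / α ^ 2 - φ₂ / α + 2 * ε) 0 := by
    have d1 : HasDerivAt (fun t => α + β * t) β 0 := by
      simpa using ((hasDerivAt_id (0:ℝ)).const_mul β).const_add α
    have d2 : HasDerivAt (fun t => x₀ + t - a) 1 (0:ℝ) := by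
      simpa using ((hasDerivAt_id (0:ℝ)).const_add x₀).sub_const a
    have := (((((hasDerivAt_const (0:ℝ) β).fun_div d1 (by simpa using hα.ne')).const_mul 2).sub
      (hφ2.fun_div hφ1.self_of_nhds (by simpa [φ, hφz] using hα.ne' : φ 0 ≠ 0))).sub_const m).add
      (d2.const_mul (2 * ε))
    refine this.congr_deriv ?_
    simp only [hφ0, hφz, mul_zero, add_zero]
    field_simp
    ring
  refine not_localMax_of_deriv2_pos hM1 hM2 ?_ hMmax
  have hcs : β ^ 2 ≤ α * sq (T x₀) η₁ := by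
    have := hP.le_dual v η₁
    rwa [hαd] at this
  have h5 : 2 * β ^ 2 / α ^ 2 ≤ -φ₂ / α := by
    rw [div_le_div_iff₀ (by positivity) hα]
    nlinarith
  have e1 : -2 * β ^ 2 / α ^ 2 = -(2 * β ^ 2 / α ^ 2) := by ring
  have e2 : -φ₂ / α = -(φ₂ / α) := by ring
  linarith

lemma sq_bound {T : ℝ → (E →L[ℂ] E)} {a b : ℝ} (ha : a < 0) (hb : 0 < b)
    (hc : ContinuousOn T (Ico a b)) (hpos : ∀ x ∈ Ico a b, IsPos (T x))
    (htest : ∀ x ∈ Ioo a b, TestCond T x) :
    ∃ C : ℝ, ∀ x ∈ Ico (0:ℝ) b, ∀ η : E, sq (T x) η ≤ C * ‖η‖ ^ 2 := by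
  by_cases hne : (sphere (0 : E) 1).Nonempty
  swap
  · refine ⟨0, fun x hx η => ?_⟩
    have : η = 0 := by
      by_contra h
      exact hne ⟨(‖η‖⁻¹ : ℝ) • η, by simp [norm_smul, h]⟩
    simp [this, sq]
  have hKc : IsCompact (sphere (0 : E) 1) := isCompact_sphere _ _
  have hdc : ∀ y, Continuous fun v : E => dual (T y) v := fun y =>
    Complex.continuous_re.comp (continuous_id.inner (T y).inverse.continuous)
  have h0I : (0:ℝ) ∈ Ico a b := ⟨ha.le, hb⟩
  have haI : a ∈ Ico a b := ⟨le_rfl, by linarith⟩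
  have hne0 : ∀ v ∈ sphere (0 : E) 1, v ≠ 0 := fun v hv h => by simp [h] at hv
  obtain ⟨l, hl⟩ := hKc.exists_bound_of_continuousOn
    (f := fun v => Real.log (dual (T 0) v))
    ((hdc 0).continuousOn.log fun v hv => ((hpos 0 h0I).dual_pos (hne0 v hv)).ne')
  obtain ⟨K, hK⟩ := hKc.exists_bound_of_continuousOn
    (f := fun v => Real.log (dual (T a) v))
    ((hdc a).continuousOn.log fun v hv => ((hpos a haI).dual_pos (hne0 v hv)).ne')
  set L := |l| + (b / (-a)) * (|l| + |K|)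
  refine ⟨Real.exp L, fun x hx η => ?_⟩
  have hxI : x ∈ Ico a b := ⟨by linarith [hx.1], hx.2⟩
  have hlow : ∀ v ∈ sphere (0 : E) 1, -L ≤ Real.log (dual (T x) v) := by
    intro v hv
    rcases hx.1.eq_or_lt with h | hxp
    · rw [← h]
      have := (abs_le.1 (hl v hv)).1
      have : 0 ≤ b / (-a) * (|l| + |K|) := by
        have : 0 < -a := by linarith
        positivity
      simp only [L]
      linarith [le_abs_self l, (abs_le.1 (hl v hv)).1]
    have hsub : Icc a x ⊆ Ico a b := fun y hy => ⟨hy.1, hy.2.trans_lt hx.2⟩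
    have hch := dual_chord (by linarith : a < x) (hc.mono hsub) (fun y hy => hpos y (hsub hy))
      (fun y hy => htest y ⟨hy.1, hy.2.trans hx.2⟩) (hne0 v hv) (x := 0) ⟨ha.le, hxp.le⟩
    have h1 := (abs_le.1 (hl v hv)).1
    have h2 := (abs_le.1 (hK v hv)).2
    have hna : 0 < -a := by linarith
    have hl' := le_abs_self l
    have hK' := le_abs_self K
    have h3 : (x - a) * -|l| - x * |K| ≤ (-a) * Real.log (dual (T x) v) := by
      nlinarith [mul_le_mul_of_nonneg_left h1 (by linarith : (0:ℝ) ≤ x - a),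
        mul_le_mul_of_nonneg_left h2 hxp.le, mul_le_mul_of_nonneg_left hl' (by linarith : (0:ℝ) ≤ x - a),
        mul_le_mul_of_nonneg_left hK' hxp.le]
    have h4 : (-a) * -L ≤ (x - a) * -|l| - x * |K| := by
      have e : (-a) * -L = -((-a) * |l| + b * (|l| + |K|)) := by
        have hd : b / (-a) * (-a) = b := div_mul_cancel₀ _ hna.ne'
        simp only [L]
        linear_combination (-(|l| + |K|)) * hd
      rw [e]
      nlinarith [mul_le_mul_of_nonneg_right hx.2.le (add_nonneg (abs_nonneg l) (abs_nonneg K))]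
    exact le_of_mul_le_mul_left (h4.trans h3) hna
  have hP := hpos x hxI
  by_cases hη : η = 0
  · simp [hη, sq]
  have hw : T x η ≠ 0 := fun h => by simpa [sq, h] using hP.pos η hη
  set w := T x η
  set r := ‖w‖
  have hr : 0 < r := norm_pos_iff.2 hw
  have hvS : (r⁻¹ : ℝ) • w ∈ sphere (0 : E) 1 := by
    simp [norm_smul, r, hw]
  have hlv := hlow _ hvS
  rw [Real.le_log_iff_exp_le (hP.dual_pos (hne0 _ hvS))] at hlv
  have hsc : dual (T x) ((r⁻¹ : ℝ) • w) = r⁻¹ ^ 2 * dual (T x) w := by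
    simp only [dual, ← Complex.coe_smul, map_smul, inner_smul_left, inner_smul_right,
      Complex.conj_ofReal, ← mul_assoc, ← Complex.ofReal_mul, Complex.re_ofReal_mul]
    ring
  have hdw : dual (T x) w = sq (T x) η := by
    unfold dual sq
    rw [hP.invertible.inverse_apply_self η, hP.sym]
  rw [hsc, hdw] at hlv
  have hq := hP.pos η hη
  have hcs : sq (T x) η ≤ ‖η‖ * r := (Complex.re_le_norm _).trans (norm_inner_le_norm _ _)
  have h6 : Real.exp (-L) * r ^ 2 ≤ sq (T x) η := by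
    have e : r⁻¹ ^ 2 * sq (T x) η * r ^ 2 = sq (T x) η := by field_simp
    nlinarith [mul_le_mul_of_nonneg_right hlv (sq_nonneg r)]
  rw [Real.exp_neg] at h6
  have hE := Real.exp_pos L
  have h7 : r ^ 2 ≤ Real.exp L * sq (T x) η := by
    rw [inv_mul_le_iff₀ hE] at h6
    exact h6
  have h8 : sq (T x) η ^ 2 ≤ ‖η‖ ^ 2 * (Real.exp L * sq (T x) η) := by
    calc sq (T x) η ^ 2 ≤ (‖η‖ * r) ^ 2 := pow_le_pow_left₀ hq.le hcs 2
      _ ≤ _ := by rw [mul_pow]; exact mul_le_mul_of_nonneg_left h7 (sq_nonneg _)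
  nlinarith

/-! ### Orbits of a complex flow -/

def BisectNonneg (D : Set E) (G : E → (E →L[ℂ] E)) : Prop :=
  ∀ z ∈ D, ∀ u w, 0 ≤ bisect G z u w

lemma hasDerivAt_apply {A : ℝ → (E →L[ℂ] E)} {A' : E →L[ℂ] E} {W : ℝ → E}
    {W' : E} {x : ℝ} (hA : HasDerivAt A A' x) (hW : HasDerivAt W W' x) :
    HasDerivAt (fun s => A s (W s)) (A' (W x) + A x W') x := by
  have h := ((ContinuousLinearMap.restrictScalarsL ℂ E E ℝ ℝ).hasFDerivAt.comp_hasDerivAt
    x hA).clm_apply hW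
  exact h

lemma hasDerivAt_line {f : ℂ → E} {f' : E} {a e : ℂ} {s : ℝ}
    (hf : HasDerivAt f f' (a + (s : ℂ) * e)) :
    HasDerivAt (fun h : ℝ => f (a + (h : ℂ) * e)) (e • f') s := by
  have h1 : HasDerivAt (fun h : ℝ => a + (h : ℂ) * e) e s := by
    simpa using ((hasDerivAt_id s).ofReal_comp.mul_const e).const_add a
  exact hf.scomp s h1

/-- Second order expansion of `g(w,w)` along one real direction `e` of complex time. -/
lemma line_expansion {D : Set E} (hD : IsOpen D) {G : E → (E →L[ℂ] E)}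
    (hG : HermMetric D G) {c W : ℂ → E} (hc : ContDiff ℂ ∞ c) (hW : ContDiff ℂ ∞ W)
    {a : ℂ} (ha : c a ∈ D) (e : ℂ) :
    ∃ k₁ : ℝ → ℝ, (∀ᶠ h in 𝓝 (0:ℝ),
        HasDerivAt (fun s : ℝ => sq (G (c (a + (s:ℂ) * e))) (W (a + (s:ℂ) * e))) (k₁ h) h) ∧
      k₁ 0 = 2 * (⟪e • deriv W a, G (c a) (W a)⟫_ℂ).re
          + (⟪W a, fderiv ℝ G (c a) (e • deriv c a) (W a)⟫_ℂ).re ∧
      HasDerivAt k₁ (2 * (⟪(e * e) • deriv (deriv W) a, G (c a) (W a)⟫_ℂ).re
          + 2 * sq (G (c a)) (e • deriv W a)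
          + 2 * (⟪e • deriv W a, fderiv ℝ G (c a) (e • deriv c a) (W a)⟫_ℂ).re
          + 2 * (⟪W a, fderiv ℝ G (c a) (e • deriv c a) (e • deriv W a)⟫_ℂ).re
          + (⟪W a, fderiv ℝ (fderiv ℝ G) (c a) (e • deriv c a) (e • deriv c a) (W a)⟫_ℂ).re
          + (⟪W a, fderiv ℝ G (c a) ((e * e) • deriv (deriv c) a) (W a)⟫_ℂ).re) 0 := by
  have hcd : Differentiable ℂ c := hc.differentiable (by simp)
  have hWd : Differentiable ℂ W := hW.differentiable (by simp)
  have hcd' : Differentiable ℂ (deriv c) := (contDiff_infty_iff_deriv.1 hc).2.differentiable (by simp)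
  have hWd' : Differentiable ℂ (deriv W) := (contDiff_infty_iff_deriv.1 hW).2.differentiable (by simp)
  set cl : ℝ → E := fun s => c (a + (s:ℂ) * e)
  set wl : ℝ → E := fun s => W (a + (s:ℂ) * e)
  set cl' : ℝ → E := fun s => e • deriv c (a + (s:ℂ) * e)
  set wl' : ℝ → E := fun s => e • deriv W (a + (s:ℂ) * e)
  have dcl : ∀ s, HasDerivAt cl (cl' s) s := fun s => hasDerivAt_line (hcd _).hasDerivAt
  have dwl : ∀ s, HasDerivAt wl (wl' s) s := fun s => hasDerivAt_line (hWd _).hasDerivAt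
  have d0 : a + ((0:ℝ):ℂ) * e = a := by simp
  have dcl' : HasDerivAt cl' ((e * e) • deriv (deriv c) a) 0 := by
    have h := (hasDerivAt_line (e := e) (s := 0) (hcd' (a + ((0:ℝ):ℂ) * e)).hasDerivAt).const_smul e
    simpa [cl', wl', d0, smul_smul, Pi.smul_def] using h
  have dwl' : HasDerivAt wl' ((e * e) • deriv (deriv W) a) 0 := by
    have h := (hasDerivAt_line (e := e) (s := 0) (hWd' (a + ((0:ℝ):ℂ) * e)).hasDerivAt).const_smul e
    simpa [cl', wl', d0, smul_smul, Pi.smul_def] using h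
  have hev : ∀ᶠ s in 𝓝 (0:ℝ), cl s ∈ D :=
    (dcl 0).continuousAt (hD.mem_nhds (by simpa [cl, d0] using ha))
  have dG : ∀ p ∈ D, HasFDerivAt G (fderiv ℝ G p) p := fun p hp =>
    ((hG.1.contDiffAt (hD.mem_nhds hp)).differentiableAt (by norm_num)).hasFDerivAt
  set k₁ : ℝ → ℝ := fun s =>
    (⟪wl' s, G (cl s) (wl s)⟫_ℂ).re + (⟪wl s, fderiv ℝ G (cl s) (cl' s) (wl s)⟫_ℂ).re
      + (⟪wl s, G (cl s) (wl' s)⟫_ℂ).re
  have hpos := (hG.2 _ ha).1
  refine ⟨k₁, ?_, ?_, ?_⟩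
  · filter_upwards [hev] with s hs
    have h1 := hasDerivAt_apply ((dG _ hs).comp_hasDerivAt s (dcl s)) (dwl s)
    have h2 := Complex.reCLM.hasFDerivAt.comp_hasDerivAt s ((dwl s).inner ℂ h1)
    refine h2.congr_deriv ?_
    simp only [k₁, Complex.reCLM_apply, Complex.add_re, inner_add_right, Function.comp_apply]
    ring
  · simp only [k₁, cl, wl, cl', wl', d0]
    have s0 : (⟪W a, G (c a) (e • deriv W a)⟫_ℂ).re = (⟪e • deriv W a, G (c a) (W a)⟫_ℂ).re := by
      rw [← hpos, ← inner_conj_symm (G (c a) (W a)) (e • deriv W a), Complex.conj_re]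
    rw [s0]
    ring
  · have hG1 : ContDiffAt ℝ 2 G (cl 0) :=
      hG.1.contDiffAt (hD.mem_nhds (by simpa [cl, d0] using ha))
    have h11 : ((1 : ℕ∞) : WithTop ℕ∞) + 1 ≤ 2 := by norm_num
    have h12 : ContDiffAt ℝ ((1 : ℕ∞) : WithTop ℕ∞) (fderiv ℝ G) (cl 0) :=
      ContDiffAt.fderiv_right (𝕜 := ℝ) hG1 h11
    have h13 : DifferentiableAt ℝ (fderiv ℝ G) (cl 0) := h12.differentiableAt (by simp)
    have h1 : HasFDerivAt (fderiv ℝ G) (fderiv ℝ (fderiv ℝ G) (cl 0)) (cl 0) := h13.hasFDerivAt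
    have h3 : HasDerivAt (fun s => fderiv ℝ G (cl s)) (fderiv ℝ (fderiv ℝ G) (cl 0) (cl' 0)) 0 :=
      HasFDerivAt.comp_hasDerivAt (l := fderiv ℝ G) (l' := fderiv ℝ (fderiv ℝ G) (cl 0)) (0:ℝ) h1 (dcl 0)
    have hG' : HasDerivAt (fun s => fderiv ℝ G (cl s) (cl' s))
        (fderiv ℝ (fderiv ℝ G) (cl 0) (cl' 0) (cl' 0)
          + fderiv ℝ G (cl 0) ((e * e) • deriv (deriv c) a)) 0 :=
      h3.clm_apply dcl'
    have hGs : HasDerivAt (fun s => G (cl s)) (fderiv ℝ G (cl 0) (cl' 0)) 0 :=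
      (dG _ (by simpa [cl, d0] using ha)).comp_hasDerivAt 0 (dcl 0)
    have a1 := Complex.reCLM.hasFDerivAt.comp_hasDerivAt (0:ℝ)
      (dwl'.inner ℂ (hasDerivAt_apply hGs (dwl 0)))
    have a2 := Complex.reCLM.hasFDerivAt.comp_hasDerivAt (0:ℝ)
      ((dwl 0).inner ℂ (hasDerivAt_apply hG' (dwl 0)))
    have a3 := Complex.reCLM.hasFDerivAt.comp_hasDerivAt (0:ℝ)
      ((dwl 0).inner ℂ (hasDerivAt_apply hGs dwl'))
    have := (a1.add a2).add a3
    refine this.congr_deriv ?_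
    simp only [Complex.reCLM_apply, cl, wl, cl', wl', d0, add_apply, Complex.add_re,
      inner_add_right, sq]
    have s1 : (⟪W a, G (c a) ((e * e) • deriv (deriv W) a)⟫_ℂ).re
        = (⟪(e * e) • deriv (deriv W) a, G (c a) (W a)⟫_ℂ).re := by
      rw [← hpos, ← inner_conj_symm (G (c a) (W a)), Complex.conj_re]
    rw [s1]
    ring

lemma fderiv_symm {D : Set E} (hD : IsOpen D) {G : E → (E →L[ℂ] E)}
    (hG : HermMetric D G) {z : E} (hz : z ∈ D) (d u v : E) :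
    ⟪fderiv ℝ G z d u, v⟫_ℂ = ⟪u, fderiv ℝ G z d v⟫_ℂ := by
  have hd : HasFDerivAt G (fderiv ℝ G z) z :=
    ((hG.1.contDiffAt (hD.mem_nhds hz)).differentiableAt (by norm_num)).hasFDerivAt
  have hl : HasDerivAt (fun s : ℝ => z + s • d) d 0 := by
    simpa using ((hasDerivAt_id (0:ℝ)).smul_const d).const_add z
  have hz0 : z = z + (0:ℝ) • d := by simp
  have h1 : HasDerivAt (fun s : ℝ => G (z + s • d)) (fderiv ℝ G z d) 0 :=
    hd.comp_hasDerivAt_of_eq (0:ℝ) hl hz0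
  have a1 := (hasDerivAt_apply h1 (hasDerivAt_const (0:ℝ) u)).inner ℂ (hasDerivAt_const (0:ℝ) v)
  have a2 := (hasDerivAt_const (0:ℝ) u).inner ℂ (hasDerivAt_apply h1 (hasDerivAt_const (0:ℝ) v))
  have hev : (fun s : ℝ => ⟪G (z + s • d) u, v⟫_ℂ) =ᶠ[𝓝 0] fun s => ⟪u, G (z + s • d) v⟫_ℂ := by
    have : ∀ᶠ s : ℝ in 𝓝 0, z + s • d ∈ D :=
      hl.continuousAt (hD.mem_nhds (by simpa using hz))
    filter_upwards [this] with s hs using (hG.2 _ hs).1 u v
  have := (a1.congr_of_eventuallyEq hev.symm).unique a2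
  simpa using this

namespace CFlow

variable {Φ : ℂ → E → E} (hΦ : CFlow Φ)

/-- Differential of the time `τ` map at `z`. -/
def Dz (Φ : ℂ → E → E) (z : E) (τ : ℂ) : E →L[ℂ] E := fderiv ℂ (Φ τ) z

include hΦ

lemma diffAt (τ : ℂ) (z : E) : DifferentiableAt ℂ (Φ τ) z := by
  have : ContDiff ℂ ∞ (Φ τ) := hΦ.1.comp (contDiff_prodMk_right τ)
  exact this.differentiable (by simp) z

lemma contDiff_orbit (z : E) : ContDiff ℂ ∞ (fun τ => Φ τ z) :=
  hΦ.1.comp (contDiff_prodMk_left z)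

lemma contDiff_Dz (z : E) : ContDiff ℂ ∞ (Dz Φ z) := by
  have h := hΦ.1
  exact ContDiff.fderiv (f := Φ) (g := fun _ : ℂ => z) h contDiff_const (by simp)

lemma Dz_add (z : E) (s t : ℂ) :
    Dz Φ z (s + t) = (Dz Φ (Φ t z) s).comp (Dz Φ z t) := by
  have h : Φ (s + t) = Φ s ∘ Φ t := funext fun w => hΦ.2.2 s t w
  unfold Dz
  rw [h]
  exact fderiv_comp z (hΦ.diffAt s _) (hΦ.diffAt t z)

lemma Dz_zero (z : E) : Dz Φ z 0 = ContinuousLinearMap.id ℂ E := by
  have h : Φ 0 = id := funext hΦ.2.1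
  unfold Dz
  rw [h, fderiv_id]

lemma Dz_surj (z : E) (τ : ℂ) : Function.Surjective (Dz Φ z τ) := by
  intro w
  refine ⟨Dz Φ (Φ τ z) (-τ) w, ?_⟩
  have h := hΦ.Dz_add (Φ τ z) τ (-τ)
  have e : Φ (-τ) (Φ τ z) = z := by rw [← hΦ.2.2]; simp [hΦ.2.1]
  rw [add_neg_cancel, hΦ.Dz_zero, e] at h
  exact (congrFun (congrArg DFunLike.coe h) w).symm

lemma Dz_inj (z : E) (τ : ℂ) : Function.Injective (Dz Φ z τ) :=
  LinearMap.injective_iff_surjective.2 (hΦ.Dz_surj z τ)

lemma orbit_deriv (z : E) (τ : ℂ) :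
    deriv (fun t => Φ t z) τ = Dz Φ z τ (deriv (fun t => Φ t z) 0) := by
  have h0 : HasDerivAt (fun t => Φ t z) (deriv (fun t => Φ t z) 0) 0 :=
    ((hΦ.contDiff_orbit z).differentiable (by simp) 0).hasDerivAt
  have h1 : HasDerivAt (fun h => Φ (τ + h) z) (Dz Φ z τ (deriv (fun t => Φ t z) 0)) 0 := by
    have hf : HasFDerivAt (Φ τ) (Dz Φ z τ) z := (hΦ.diffAt τ z).hasFDerivAt
    have := hf.comp_hasDerivAt_of_eq (0:ℂ) h0 (hΦ.2.1 z).symm
    refine this.congr_of_eventuallyEq (Eventually.of_forall fun h => ?_)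
    exact hΦ.2.2 τ h z
  have h2 : HasDerivAt (fun h => Φ (τ + h) z) (deriv (fun t => Φ t z) τ) 0 := by
    have := ((hΦ.contDiff_orbit z).differentiable (by simp) (τ + 0)).hasDerivAt.comp_const_add τ 0
    simpa using this
  exact h2.unique h1

lemma neg : CFlow (fun τ => Φ (-τ)) := by
  refine ⟨hΦ.1.comp ((contDiff_fst.neg).prodMk contDiff_snd), ?_, ?_⟩
  · intro z; simp [hΦ.2.1]
  · intro s t z
    show Φ (-(s + t)) z = Φ (-s) (Φ (-t) z)
    rw [neg_add, hΦ.2.2]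

end CFlow

/-- The metric pulled back along the orbit of `z`. -/
def pull (G : E → (E →L[ℂ] E)) (Φ : ℂ → E → E) (z : E) (x : ℝ) :
    E →L[ℂ] E :=
  (ContinuousLinearMap.adjoint (CFlow.Dz Φ z x)).comp
    ((G (Φ x z)).comp (CFlow.Dz Φ z x))

lemma sq_pull (G : E → (E →L[ℂ] E)) (Φ : ℂ → E → E) (z : E) (x : ℝ)
    (η : E) : sq (pull G Φ z x) η = sq (G (Φ x z)) (CFlow.Dz Φ z x η) := by
  simp [sq, pull, ContinuousLinearMap.adjoint_inner_right]

section Orbit

variable {D : Set E} {G : E → (E →L[ℂ] E)} {Φ : ℂ → E → E}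

lemma isPos_pull (hG : HermMetric D G) (hΦ : CFlow Φ) {z : E} {x : ℝ} (hx : Φ x z ∈ D) :
    IsPos (pull G Φ z x) := by
  refine ⟨fun u v => ?_, fun u hu => ?_⟩
  · simp [pull, ContinuousLinearMap.adjoint_inner_right, ContinuousLinearMap.adjoint_inner_left,
      (hG.2 _ hx).1]
  · rw [sq_pull]
    refine (hG.2 _ hx).2 _ fun h => hu ?_
    exact hΦ.Dz_inj z x (by rw [h, map_zero])

lemma continuousAt_pull (hD : IsOpen D) (hG : HermMetric D G) (hΦ : CFlow Φ) {z : E} {x : ℝ}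
    (hx : Φ x z ∈ D) : ContinuousAt (pull G Φ z) x := by
  have hA : Continuous fun y : ℝ => CFlow.Dz Φ z y :=
    (hΦ.contDiff_Dz z).continuous.comp Complex.continuous_ofReal
  have hγ : Continuous fun y : ℝ => Φ y z :=
    (hΦ.contDiff_orbit z).continuous.comp Complex.continuous_ofReal
  have hGc : ContinuousAt (fun y : ℝ => G (Φ y z)) x :=
    ContinuousAt.comp (g := G) (hG.1.continuousOn.continuousAt (hD.mem_nhds hx)) hγ.continuousAt
  exact ((ContinuousLinearMap.adjoint.continuous.comp hA).continuousAt).clm_comp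
    (hGc.clm_comp hA.continuousAt)

lemma testCond_pull (hD : IsOpen D) (hG : HermMetric D G) (hK : BisectNonneg D G)
    (hΦ : CFlow Φ) (hS : RealSymmetry D G Φ) {z : E} {x₀ : ℝ} (hx : Φ x₀ z ∈ D) :
    TestCond (pull G Φ z) x₀ := by
  intro η₀
  set c : ℂ → E := fun τ => Φ τ z
  set A : ℂ → (E →L[ℂ] E) := CFlow.Dz Φ z
  set p := c (x₀:ℂ)
  have hp : p ∈ D := hx
  set u := deriv c (x₀:ℂ)
  set w₀ := A x₀ η₀
  set P := G p
  have hP : IsPos P := ⟨(hG.2 p hp).1, (hG.2 p hp).2⟩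
  set m := dz G p u w₀
  have hAd : HasDerivAt A (deriv A x₀) (x₀:ℂ) :=
    ((hΦ.contDiff_Dz z).differentiable (by simp) _).hasDerivAt
  obtain ⟨η₁, hη₁⟩ := hΦ.Dz_surj z x₀ (-(P.inverse m) - deriv A x₀ η₀)
  set W : ℂ → E := fun τ => A τ (η₀ + (τ - x₀) • η₁)
  have hW : ContDiff ℂ ∞ W :=
    (hΦ.contDiff_Dz z).clm_apply
      (contDiff_const.add ((contDiff_id.sub contDiff_const).smul contDiff_const))
  have hW0 : W x₀ = w₀ := by simp [W, w₀]
  have hW1 : deriv W x₀ = -(P.inverse m) := by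
    have h : HasDerivAt W (deriv A x₀ η₀ + A x₀ η₁) (x₀:ℂ) := by
      have := hAd.clm_apply
        ((((hasDerivAt_id (x₀:ℂ)).sub_const (x₀:ℂ)).smul_const η₁).const_add η₀)
      simpa [W] using this
    rw [h.deriv, show A x₀ η₁ = _ from hη₁]
    abel
  have hc : ContDiff ℂ ∞ c := hΦ.contDiff_orbit z
  obtain ⟨k, hk, hk0, hk2⟩ := line_expansion hD hG hc hW hx 1
  obtain ⟨l, hl, hl0, hl2⟩ := line_expansion hD hG hc hW hx I
  set q0 := sq (pull G Φ z x₀) η₀
  set q1 := sq (pull G Φ z x₀) η₁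
  set μ := (⟪η₁, pull G Φ z x₀ η₀⟫_ℂ).im
  -- the imaginary direction is an exact quadratic
  have hy : ∀ y : ℝ, sq (G (c ((x₀:ℂ) + y * I))) (W ((x₀:ℂ) + y * I))
      = q0 + 2 * μ * y + q1 * y ^ 2 := by
    intro y
    have e1 : c ((x₀:ℂ) + y * I) = Φ ((y:ℂ) * I) p := by
      show Φ _ z = Φ _ (Φ _ z)
      rw [← hΦ.2.2, add_comm]
    have e2 : W ((x₀:ℂ) + y * I) = CFlow.Dz Φ p ((y:ℂ) * I) (A x₀ (η₀ + ((y:ℂ) * I) • η₁)) := by
      simp only [W, add_sub_cancel_left]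
      rw [show A ((x₀:ℂ) + y * I) = _ from (congrArg (CFlow.Dz Φ z) (add_comm _ _)).trans
        (hΦ.Dz_add z ((y:ℂ) * I) x₀)]
      rfl
    rw [e1, e2]
    show sq _ (fderiv ℂ (Φ ((y:ℂ) * I)) p _) = _
    rw [(hS y p hp).2, show sq (G p) (A x₀ (η₀ + ((y:ℂ) * I) • η₁)) = _ from
      (sq_pull G Φ z x₀ _).symm]
    have hT := isPos_pull hG hΦ hx
    have hc1 : ⟪η₀, pull G Φ z x₀ η₁⟫_ℂ = (starRingEnd ℂ) ⟪η₁, pull G Φ z x₀ η₀⟫_ℂ := by
      rw [inner_conj_symm, hT.sym]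
    simp only [sq, q0, q1, μ, map_add, map_smul, inner_add_left, inner_add_right, inner_smul_left,
      inner_smul_right, hc1, map_mul, Complex.conj_ofReal, Complex.conj_I]
    simp only [Complex.add_re, Complex.add_im, Complex.mul_re, Complex.mul_im, Complex.ofReal_re,
      Complex.ofReal_im, Complex.I_re, Complex.I_im, Complex.neg_re, Complex.neg_im,
      Complex.conj_re, Complex.conj_im]
    ring
  have hly : ∀ᶠ y in 𝓝 (0:ℝ), l y = 2 * μ + 2 * q1 * y := by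
    filter_upwards [hl] with y hy'
    have d : HasDerivAt (fun y : ℝ => q0 + 2 * μ * y + q1 * y ^ 2) (2 * μ + 2 * q1 * y) y := by
      have := (((hasDerivAt_id y).const_mul (2 * μ)).const_add q0).add
        (((hasDerivAt_id y).pow 2).const_mul q1)
      refine this.congr_deriv ?_
      simp; ring
    exact hy'.unique (d.congr_of_eventuallyEq (Eventually.of_forall hy))
  have hl2' : HasDerivAt l (2 * q1) 0 := by
    have d : HasDerivAt (fun y : ℝ => 2 * μ + 2 * q1 * y) (2 * q1) 0 := by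
      simpa using ((hasDerivAt_id (0:ℝ)).const_mul (2 * q1)).const_add (2 * μ)
    exact d.congr_of_eventuallyEq hly
  have hL2 := hl2.unique hl2'
  have hl00 : l 0 = 2 * μ := by simpa using hly.self_of_nhds
  have hsP : ∀ d a b : E, ⟪fderiv ℝ G p d a, b⟫_ℂ = ⟪a, fderiv ℝ G p d b⟫_ℂ :=
    fun d a b => fderiv_symm hD hG hp d a b
  have himd : ∀ d a, (⟪a, fderiv ℝ G p d a⟫_ℂ).im = 0 := by
    intro d a
    have h := hsP d a a
    rw [← inner_conj_symm (fderiv ℝ G p d a) a] at h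
    exact Complex.conj_eq_iff_im.1 h
  set A1 := fderiv ℝ G p u w₀
  set A2 := fderiv ℝ G p (I • u) w₀
  have hm : m = (1/2:ℂ) • (A1 - I • A2) := by simp [m, dz, A1, A2]
  have hwm : ⟪deriv W x₀, G p (W x₀)⟫_ℂ = -⟪m, w₀⟫_ℂ := by
    rw [hW0, hW1, inner_neg_left, show G p = P from rfl, ← hP.sym, hP.apply_inv]
  have hm2 : (⟪m, w₀⟫_ℂ).re = (⟪w₀, A1⟫_ℂ).re / 2 ∧
      (⟪m, w₀⟫_ℂ).im = (⟪w₀, A2⟫_ℂ).re / 2 := by
    rw [← inner_conj_symm m w₀, hm]
    simp only [inner_smul_right, inner_sub_right, Complex.conj_re, Complex.conj_im]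
    simp [himd u w₀, himd (I • u) w₀, A1, A2]
    constructor <;> ring
  have hk00 : k 0 = 0 := by
    rw [hk0]
    simp only [one_smul]
    rw [hwm, hW0, show fderiv ℝ G (c x₀) (deriv c x₀) w₀ = A1 from rfl, Complex.neg_re, hm2.1]
    ring
  have hμ : μ = 0 := by
    have h := hl0
    rw [hl00, inner_smul_left, hwm, hW0,
      show fderiv ℝ G (c x₀) (I • deriv c x₀) w₀ = A2 from rfl] at h
    simp [hm2.2] at h
    linarith
  refine ⟨η₁, k, _, hμ, ?_, hk2, hk00, ?_⟩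
  · have key : ∀ s : ℝ, sq (pull G Φ z (x₀ + s)) (η₀ + s • η₁)
        = sq (G (c ((x₀:ℂ) + s * 1))) (W ((x₀:ℂ) + s * 1)) := by
      intro s
      rw [sq_pull]
      simp [c, W, A, Complex.coe_smul]
    simp_rw [key]
    exact hk
  · have hR := hK p hp u w₀
    have hS' : sq P (P.inverse m) = (⟪m, P.inverse m⟫_ℂ).re := (hP.dual_eq m).symm
    have hII : (I * I : ℂ) = -1 := Complex.I_mul_I
    rw [show sq (pull G Φ z x₀) η₁ = q1 from rfl, ← hL2]
    simp only [hII, one_mul, one_smul, neg_one_smul, map_neg, inner_neg_left, inner_neg_right,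
      neg_apply, hW0, hW1, show c x₀ = p from rfl,
      show deriv c x₀ = u from rfl, smul_neg, map_smul, inner_smul_left, inner_smul_right,
      Complex.conj_I, Complex.neg_re]
    have f3 : ∀ x, ⟪w₀, fderiv ℝ G p u x⟫_ℂ = (starRingEnd ℂ) ⟪x, A1⟫_ℂ := fun x => by
      rw [inner_conj_symm, hsP]
    have f4 : ∀ x, ⟪w₀, fderiv ℝ G p (I • u) x⟫_ℂ = (starRingEnd ℂ) ⟪x, A2⟫_ℂ := fun x => by
      rw [inner_conj_symm, hsP]
    simp only [f3 (P.inverse m), f4 (P.inverse m), show fderiv ℝ G p u w₀ = A1 from rfl,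
      show fderiv ℝ G p (I • u) w₀ = A2 from rfl]
    unfold bisect at hR
    rw [show dz G p u w₀ = m from rfl, show (G p).inverse = P.inverse from rfl] at hR
    have e1 : (⟪w₀, ddbar G p u w₀⟫_ℂ).re =
        ((⟪w₀, fderiv ℝ (fderiv ℝ G) p u u w₀⟫_ℂ).re
          + (⟪w₀, fderiv ℝ (fderiv ℝ G) p (I • u) (I • u) w₀⟫_ℂ).re) / 4 := by
      simp [ddbar]
      ring
    rw [e1] at hR
    have e2 : (⟪P.inverse m, A1⟫_ℂ).re + (-I * ⟪P.inverse m, A2⟫_ℂ).re
        = 2 * (⟪m, P.inverse m⟫_ℂ).re := by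
      rw [← inner_conj_symm m (P.inverse m), hm, inner_smul_right, inner_sub_right,
        inner_smul_right, Complex.conj_re]
      simp [inner_smul_left, inner_sub_left]
      ring
    simp only [sq] at hS' ⊢
    have f5 : ∀ x y : E, (⟪x, y⟫_ℂ).re = (⟪y, x⟫_ℂ).re := fun x y => by
      rw [← inner_conj_symm x y, Complex.conj_re]
    have f6 : ∀ x y : E, (⟪x, y⟫_ℂ).im = -(⟪y, x⟫_ℂ).im := fun x y => by
      rw [← inner_conj_symm x y, Complex.conj_im]
    simp [inner_smul_left, inner_smul_right] at e2 hS' hR ⊢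
    linarith [f5 A1 (P.inverse m), f6 A2 (P.inverse m)]

/-- A symmetric orbit cannot leave `D` at a finite time. -/
lemma forward (hD : IsOpen D) (hG : HermMetric D G) (hC : CompleteMetric D G)
    (hK : BisectNonneg D G) (hΦ : CFlow Φ) (hS : RealSymmetry D G Φ) {z : E} (hz : z ∈ D)
    {x : ℝ} (hx : 0 ≤ x) : Φ x z ∈ D := by
  by_contra hxD
  set γ : ℝ → E := fun y => Φ y z
  have hγs : ContDiff ℂ ∞ (fun τ => Φ τ z) := hΦ.contDiff_orbit z
  have hγ : Continuous γ := hγs.continuous.comp Complex.continuous_ofReal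
  set S := Ici (0:ℝ) ∩ γ ⁻¹' Dᶜ
  have hSc : IsClosed S := isClosed_Ici.inter (hD.isClosed_compl.preimage hγ)
  have hSb : BddBelow S := ⟨0, fun y hy => hy.1⟩
  have hSn : S.Nonempty := ⟨x, hx, hxD⟩
  set b := sInf S
  have hbS : b ∈ S := hSc.csInf_mem hSn hSb
  have h0 : γ 0 ∈ D := by simpa [γ, hΦ.2.1] using hz
  have hb : 0 < b := lt_of_le_of_ne hbS.1 fun h => hbS.2 (h ▸ h0)
  have hin : ∀ y ∈ Ico 0 b, γ y ∈ D := by
    intro y hy
    by_contra h
    exact absurd (csInf_le hSb ⟨hy.1, h⟩) (not_le.2 hy.2)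
  obtain ⟨δ, hδ, hδD⟩ := Metric.mem_nhds_iff.1 (hγ.continuousAt (hD.mem_nhds h0))
  have hin' : ∀ y ∈ Ico (-(δ/2)) b, γ y ∈ D := by
    intro y hy
    rcases lt_or_ge y 0 with h | h
    · refine hδD ?_
      rw [Metric.mem_ball, Real.dist_eq, sub_zero, abs_of_neg h]
      linarith [hy.1]
    · exact hin y ⟨h, hy.2⟩
  obtain ⟨C, hC'⟩ := sq_bound (T := pull G Φ z) (a := -(δ/2)) (b := b) (by linarith) hb
    (fun y hy => (continuousAt_pull hD hG hΦ (hin' y hy)).continuousWithinAt)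
    (fun y hy => isPos_pull hG hΦ (hin' y hy))
    (fun y hy => testCond_pull hD hG hK hΦ hS (hin' y (Ioo_subset_Ico_self hy)))
  set X := deriv (fun t => Φ t z) 0
  have hd : ∀ y : ℝ, HasDerivAt γ (CFlow.Dz Φ z y X) y := by
    intro y
    rw [← hΦ.orbit_deriv]
    simpa [γ] using hasDerivAt_line (a := 0) (e := 1) (s := y)
      ((hγs.differentiable (by simp) (0 + (y:ℂ) * 1)).hasDerivAt)
  have hγ1 : ContDiff ℝ 1 γ :=
    ((hγs.restrict_scalars ℝ).comp Complex.ofRealCLM.contDiff).of_le (by simp)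
  have hL : ∃ L : ℝ, ∀ t ∈ Ico 0 b,
      ∫ s in (0 : ℝ)..t, Real.sqrt (sq (G (γ s)) (derivWithin γ (Ico 0 b) s)) ≤ L := by
    refine ⟨Real.sqrt (C * ‖X‖ ^ 2) * b, fun t ht => ?_⟩
    refine (le_abs_self _).trans ((Real.norm_eq_abs _).ge.trans ((intervalIntegral.norm_integral_le_of_norm_le_const
      (C := Real.sqrt (C * ‖X‖ ^ 2)) fun s hs => ?_).trans ?_))
    · rw [uIoc_of_le ht.1] at hs
      have hsI : s ∈ Ico 0 b := ⟨hs.1.le, hs.2.trans_lt ht.2⟩
      rw [Real.norm_eq_abs, abs_of_nonneg (Real.sqrt_nonneg _),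
        (hd s).hasDerivWithinAt.derivWithin (uniqueDiffOn_Ico 0 b s hsI)]
      exact Real.sqrt_le_sqrt ((sq_pull G Φ z s X).symm.trans_le (hC' s hsI X))
    · rw [sub_zero, abs_of_nonneg ht.1]
      exact mul_le_mul_of_nonneg_left ht.2.le (Real.sqrt_nonneg _)
  obtain ⟨p, hpD, hp⟩ := hC γ b hb hγ1.contDiffOn hin hL
  have : Tendsto γ (𝓝[<] b) (𝓝 (γ b)) := hγ.continuousAt.mono_left nhdsWithin_le_nhds
  exact hbS.2 (tendsto_nhds_unique hp this ▸ hpD)

lemma invariant (hD : IsOpen D) (hG : HermMetric D G) (hC : CompleteMetric D G)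
    (hK : BisectNonneg D G) (hΦ : CFlow Φ) (hS : RealSymmetry D G Φ) (τ : ℂ) {z : E}
    (hz : z ∈ D) : Φ τ z ∈ D := by
  have hre : Φ (τ.re : ℂ) z ∈ D := by
    rcases le_total 0 τ.re with h | h
    · exact forward hD hG hC hK hΦ hS hz h
    · have hS' : RealSymmetry D G (fun t => Φ (-t)) := by
        intro s w hw
        simpa [neg_mul] using hS (-s) w hw
      have := forward hD hG hC hK hΦ.neg hS' hz (neg_nonneg.2 h)
      simpa using this
  have h := (hS τ.im _ hre).1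
  rwa [← hΦ.2.2, add_comm, Complex.re_add_im] at h

end Orbit

/-- Complex Euclidean space. -/
abbrev Cn (n : ℕ) := EuclideanSpace ℂ (Fin n)

variable {n : ℕ}

/-- Rotation with weights `k`. -/
def rot (k : Fin n → ℕ) (τ : ℂ) (z : Cn n) : Cn n :=
  WithLp.toLp 2 fun j => Complex.exp ((k j : ℂ) * τ) * z j

/--
If imaginary times of a holomorphic `ℂ`-action are isometries of a complete Hermitian metric of
nonnegative bisectional curvature on a domain, the domain is invariant under all complex times.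
Hence quasi-circular domains containing the origin and tube domains with such invariant metrics
are all of `ℂ^n`.
-/
theorem result :
    ∀ (n : ℕ) (D : Set (Cn n)) (G : Cn n → (Cn n →L[ℂ] Cn n)), Good D G →
      (∀ Φ : ℂ → Cn n → Cn n, CFlow Φ → RealSymmetry D G Φ → ∀ τ : ℂ, ∀ z ∈ D, Φ τ z ∈ D) ∧
      ((0 : Cn n) ∈ D → ∀ k : Fin n → ℕ, (∀ j, 0 < k j) →
        Symm D G (fun s => rot k ((s : ℂ) * I)) → D = univ) ∧
      (D.Nonempty →
        (∀ a : Cn n, (∀ j, (a j).im = 0) → ∀ z ∈ D, z + I • a ∈ D ∧ G (z + I • a) = G z) →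
        D = univ) := by
  intro n D G hGood
  obtain ⟨hD, hG, hC, hK⟩ := hGood
  refine ⟨fun Φ hΦ hS τ z hz => invariant hD hG hC hK hΦ hS τ hz, ?_, ?_⟩
  · intro h0 k hk hS
    have hcoord : ∀ τ z j, rot k τ z j = Complex.exp ((k j : ℂ) * τ) * z j := fun _ _ _ => rfl
    have hΦ : CFlow (rot k) := by
      refine ⟨?_, fun z => ?_, fun s t z => ?_⟩
      · rw [contDiff_euclidean]
        intro j
        simp only [hcoord]
        exact ((contDiff_const.mul contDiff_fst).cexp).mul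
          ((EuclideanSpace.proj (𝕜 := ℂ) j).contDiff.comp contDiff_snd)
      · ext j; simp [hcoord]
      · ext j; simp [hcoord, mul_add, Complex.exp_add]; ring
    let L : ℂ → (Cn n →L[ℂ] Cn n) := fun τ => LinearMap.toContinuousLinearMap
      { toFun := rot k τ
        map_add' := fun x y => by ext j; simp [hcoord]; ring
        map_smul' := fun c x => by ext j; simp [hcoord]; ring }
    have hS' : RealSymmetry D G (rot k) := by
      intro s z hz
      refine ⟨(hS s z hz).1, fun u => ?_⟩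
      have hf : fderiv ℂ (rot k ((s:ℂ) * I)) z = L ((s:ℂ) * I) := (L _).fderiv
      rw [hf]
      exact (hS s z hz).2 u
    rw [eq_univ_iff_forall]
    intro z
    have hlim : Tendsto (fun x : ℝ => rot k (-(x:ℂ)) z) atTop (𝓝 0) := by
      rw [show (0 : Cn n) = WithLp.toLp 2 (fun _ : Fin n => (0:ℂ)) from rfl]
      refine ((PiLp.continuous_toLp 2 _).tendsto _).comp (tendsto_pi_nhds.2 fun j => ?_)
      have h1 : Tendsto (fun x : ℝ => Complex.exp ((k j : ℂ) * -(x:ℂ))) atTop (𝓝 0) := by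
        rw [tendsto_zero_iff_norm_tendsto_zero]
        simp only [Complex.norm_exp]
        have : ∀ x : ℝ, ((k j : ℂ) * -(x:ℂ)).re = -((k j : ℝ) * x) := fun x => by simp
        simp only [this]
        exact Real.tendsto_exp_neg_atTop_nhds_zero.comp
          (tendsto_id.const_mul_atTop (by exact_mod_cast hk j))
      simpa using h1.mul_const (z j)
    obtain ⟨x, hx⟩ := (hlim.eventually (hD.eventually_mem h0)).exists
    have := invariant hD hG hC hK hΦ hS' (x:ℂ) hx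
    rwa [← hΦ.2.2, add_neg_cancel, hΦ.2.1] at this
  · intro hne hS
    obtain ⟨z₀, hz₀⟩ := hne
    rw [eq_univ_iff_forall]
    intro z
    have hstep : ∀ a : Cn n, (∀ j, (a j).im = 0) → ∀ w ∈ D, ∀ τ : ℂ, w + τ • a ∈ D := by
      intro a ha w hw τ
      refine invariant hD hG hC hK (Φ := fun τ w => w + τ • a)
        ⟨contDiff_snd.add (contDiff_fst.smul contDiff_const), fun w => by simp,
          fun s t w => by module⟩ ?_ τ hw
      intro s y hy
      have h := hS (s • a) (fun j => by simp [ha j]) y hy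
      have e : I • (s • a) = ((s:ℂ) * I) • a := by
        rw [← Complex.coe_smul, smul_smul, mul_comm]
      rw [e] at h
      refine ⟨h.1, fun u => ?_⟩
      have hf : fderiv ℂ (fun w => w + ((s:ℂ) * I) • a) y = ContinuousLinearMap.id ℂ _ := by
        rw [fderiv_add_const, fderiv_fun_id]
      show sq (G (y + _)) (fderiv ℂ (fun w => w + ((s:ℂ) * I) • a) y u) = _
      rw [hf, h.2]
      rfl
    set d := z - z₀
    set a : Cn n := WithLp.toLp 2 fun j => ((d j).re : ℂ)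
    set c : Cn n := WithLp.toLp 2 fun j => ((d j).im : ℂ)
    have h1 := hstep a (fun j => by simp [a]) z₀ hz₀ 1
    have h2 := hstep c (fun j => by simp [c]) _ h1 I
    convert h2 using 1
    ext j
    simp [a, c]
    have := Complex.re_add_im (d j)
    simp only [d, PiLp.sub_apply] at this ⊢
    linear_combination -this

end Vale.Agent.Results.P253.SymmetricDomains
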